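import Vale.Agent.P212Z.Bridge

namespace Vale.Agent.Results.P212.KasparovAssemblyFails

open Vale.Agent.P212 Vale.Agent.P212Z

theorem result : ∃ (X : Type) (_ : MetricSpace X) (_ : BddGeometry X) (_ : UnifDiscrete X),
    (∃ (H A : Type) (_ : NormedAddCommGroup H) (_ : InnerProductSpace ℂ H)
      (_ : CompleteSpace H) (_ : NonUnitalCStarAlgebra A) (b : HilbertBasis (X × ℕ) ℂ H)
      (i : (H →L[ℂ] H) → A), IsMaxRoe b i) ∧
    (∃ (H A : Type) (_ : NormedAddCommGroup H) (_ : InnerProductSpace ℂ H)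
      (_ : CompleteSpace H) (_ : NonUnitalCStarAlgebra A) (b : HilbertBasis (X × ℕ) ℂ H)
      (i : (H →L[ℂ] H) → A), IsReducedRoe b i) ∧
    ∀ (H A : Type) [NormedAddCommGroup H] [InnerProductSpace ℂ H] [CompleteSpace H]
      [NonUnitalCStarAlgebra A] (b : HilbertBasis (X × ℕ) ℂ H) (i : (H →L[ℂ] H) → A),
      IsMaxRoe b i ∨ IsReducedRoe b i →
      ∃ μ : Kas.KX0 X →+ KC A, Kas.IsAssembly b i μ ∧
        (∀ μ', Kas.IsAssembly b i μ' → μ' = μ) ∧ ¬ RatInj μ ∧ BigKer μ :=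
  P212Z.kasparov

end Vale.Agent.Results.P212.KasparovAssemblyFails
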